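import Vale.Agent.P269.R2.H284.Final

/-! # P269: constraints with an insertion on which all invariants vanish -/

noncomputable section

namespace Vale.Agent.P269.R3.H661

open Finset Vale.Agent.P269.R2.H284
open scoped Classical

variable {T : Target}

/-- the function vanishes on all lists which contain a class of the set `B` -/
def NB (B : Set T.A) (G : T.Fn) : Prop := ∀ S : List T.Ins, (∃ s ∈ S, s.2 ∈ B) → G S = 0

theorem NB.cons {B : Set T.A} {G : T.Fn} (h : NB B G) (x : T.Ins) : NB B (fun S => G (x :: S)) :=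
  fun _ ⟨s, hs, hb⟩ => h _ ⟨s, List.mem_cons_of_mem _ hs, hb⟩

theorem NB.cons_bad {B : Set T.A} {G : T.Fn} (h : NB B G) {x : T.Ins} (hx : x.2 ∈ B) :
    (fun S => G (x :: S)) = 0 := by
  funext S
  exact h _ ⟨x, List.mem_cons_self, hx⟩

theorem NB.zero {B : Set T.A} : NB B (0 : T.Fn) := fun _ _ => rfl

theorem NB.add {B : Set T.A} {G H : T.Fn} (hG : NB B G) (hH : NB B H) : NB B (G + H) := by
  intro S hS
  simp only [Pi.add_apply, hG S hS, hH S hS, add_zero]

theorem NB.smul {B : Set T.A} {G : T.Fn} (hG : NB B G) (c : ℂ) : NB B (c • G) := by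
  intro S hS
  simp only [Pi.smul_apply, hG S hS, smul_zero]

theorem NB.sum {B : Set T.A} {κ : Type*} (t : Finset κ) (G : κ → T.Fn) (h : ∀ k ∈ t, NB B (G k)) :
    NB B (fun S => ∑ k ∈ t, G k S) := by
  intro S hS
  exact Finset.sum_eq_zero fun k hk => h k hk S hS

theorem NB.fsum {B : Set T.A} {κ : Type*} (v : κ →₀ ℂ) (G : κ → T.Fn)
    (h : ∀ k, v k ≠ 0 → NB B (G k)) : NB B (fun S => v.sum fun x c => c * G x S) := by
  intro S hS
  unfold Finsupp.sum
  apply Finset.sum_eq_zero
  intro k hk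
  show v k * G k S = 0
  rw [h k (by simpa using hk) S hS, mul_zero]

theorem NB.ins {B : Set T.A} {G : T.Fn} (h : NB B G) (v : T.Ins →₀ ℂ) : NB B (ins v G) :=
  NB.fsum v (fun x S => G (x :: S)) fun x _ => h.cons x

theorem NB.der {B : Set T.A} {G : T.Fn} (h : NB B G) {R : T.Ins → (T.Ins →₀ ℂ)}
    (hR : ∀ s x, R s x ≠ 0 → s.2 ∈ B → x.2 ∈ B) : NB B (der R G) := by
  intro S hS
  induction S generalizing G with
  | nil => rfl
  | cons s S ih =>
    rw [der_cons]
    obtain ⟨t, ht, hb⟩ := hS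
    rcases List.mem_cons.mp ht with rfl | ht
    · have h1 : _root_.Vale.Agent.P269.R2.H284.ins (R t) G S = 0 := by
        unfold _root_.Vale.Agent.P269.R2.H284.ins Finsupp.sum
        apply Finset.sum_eq_zero
        intro x hx
        show (R t) x * G (x :: S) = 0
        rw [h (x :: S) ⟨x, List.mem_cons_self, hR t x (by simpa using hx) hb⟩, mul_zero]
      rw [h1, h.cons_bad hb, der_zero, add_zero]
    · rw [ih (h.cons s) ⟨t, ht, hb⟩, (h.ins (R s)) S ⟨t, ht, hb⟩, add_zero]

theorem NB.mul {B : Set T.A} {G H : T.Fn} (hG : NB B G) (hH : NB B H) (w : ℕ) :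
    NB B (mul w G H) := by
  intro S hS
  induction S generalizing G H w with
  | nil => obtain ⟨t, ht, _⟩ := hS; exact absurd ht (List.not_mem_nil)
  | cons s S ih =>
    rw [mul_cons]
    obtain ⟨t, ht, hb⟩ := hS
    rcases List.mem_cons.mp ht with rfl | ht
    · rw [hG.cons_bad hb, hH.cons_bad hb, mul_zero_left, mul_zero_right, mul_zero, add_zero]
    · rw [ih (hG.cons s) hH _ ⟨t, ht, hb⟩, ih hG (hH.cons s) _ ⟨t, ht, hb⟩, mul_zero, add_zero]

/-- If in classes `d ≠ 0` all invariants with an insertion from `B` vanish, and if in class `0` they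
vanish as soon as a second insertion is dual to a class outside `B`, then all constraints in classes
`d ≠ 0` with an insertion from `B` hold. -/
theorem nb_z {B P : Set T.A} (hC : ∀ i a b, (T.C ^ i) a b ≠ 0 → a ∈ B → b ∈ B)
    (hl : ∀ i a b c, T.ι c a ≠ 0 → (T.C ^ i) a b ≠ 0 → b ∉ B → c ∈ P)
    (hr : ∀ i a b c, T.ι c a ≠ 0 → (T.C ^ i) a b ≠ 0 → c ∉ B → b ∈ P)
    {F : Corr T} (h1 : ∀ g d, d ≠ 0 → NB B (F g d))
    (h0 : ∀ g (x : T.Ins), x.2 ∈ P → NB B (fun S => F g 0 (x :: S)))
    (K g : ℕ) (d : T.B) (hd : d ≠ 0) : NB B (z F K g d) := by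
  have hbiv : ∀ xy, biv T K xy ≠ 0 → (xy.2.2 ∉ B → xy.1.2 ∈ P) ∧ (xy.1.2 ∉ B → xy.2.2 ∈ P) := by
    intro xy h
    unfold biv at h
    obtain ⟨i, hi, h⟩ := finsupp_sum_ne h
    obtain ⟨nm, hnm, h⟩ := finsupp_sum_ne h
    obtain ⟨c, _, h⟩ := finsupp_sum_ne h
    obtain ⟨a, _, h⟩ := finsupp_sum_ne h
    obtain ⟨b, _, h⟩ := finsupp_sum_ne h
    obtain ⟨hxy, h'⟩ := single_ne h
    subst hxy
    have h2 := right_ne_zero_of_mul h'
    have h3 := right_ne_zero_of_mul (left_ne_zero_of_mul (left_ne_zero_of_mul h'))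
    exact ⟨fun h4 => hl i a b c h3 h2 h4, fun h4 => hr i a b c h3 h2 h4⟩
  have hvir : ∀ s x, vir T K s x ≠ 0 → s.2 ∈ B → x.2 ∈ B := by
    intro s x h hb
    unfold vir at h
    obtain ⟨i, hi, h⟩ := finsupp_sum_ne h
    split_ifs at h with h4
    · obtain ⟨b, _, h⟩ := finsupp_sum_ne h
      obtain ⟨hxy, h'⟩ := single_ne h
      subst hxy
      exact hC i s.2 b (right_ne_zero_of_mul h') hb
    · simp at h
  rw [z_eq]
  refine NB.add (NB.add (NB.add (NB.add ?_ ?_) ?_) ?_) ?_
  · exact ((h1 g d hd).ins _).smul _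
  · exact (h1 g d hd).der hvir
  · apply NB.smul
    apply NB.fsum (biv T K) (fun xy S => Phi F g d xy.1 xy.2 S)
    intro xy hxy
    obtain ⟨q1, q2⟩ := hbiv xy hxy
    have e : Phi F g d xy.1 xy.2 = (fun S => if g = 0 then 0 else F (g - 1) d (xy.1 :: xy.2 :: S)) +
      fun S => ∑ gg ∈ antidiagonal g, ∑ dd ∈ antidiagonal d, mul (T.par xy.2.2)
        (fun S => F gg.1 dd.1 (xy.1 :: S)) (fun S => F gg.2 dd.2 (xy.2 :: S)) S := rfl
    have goal : NB B (Phi F g d xy.1 xy.2) := by
      rw [e]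
      apply NB.add
      · by_cases hg : g = 0
        · simp only [hg, if_true]
          exact NB.zero
        · simp only [if_neg hg]
          exact ((h1 _ _ hd).cons _).cons _
      · apply NB.sum
        intro gg _
        apply NB.sum
        intro dd hdd
        have hs : dd.1 + dd.2 = d := by simpa using hdd
        by_cases h2 : dd.1 = 0
        · have h3 : dd.2 ≠ 0 := by
            intro h3
            apply hd
            rw [← hs, h2, h3, add_zero]
          by_cases hb : xy.2.2 ∈ B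
          · rw [(h1 gg.2 dd.2 h3).cons_bad hb]
            intro S _
            exact mul_zero_right _ _ _
          · have h4 := h0 gg.1 xy.1 (q1 hb)
            rw [← h2] at h4
            exact h4.mul ((h1 gg.2 dd.2 h3).cons _) _
        · by_cases h3 : dd.2 = 0
          · by_cases hb : xy.1.2 ∈ B
            · rw [(h1 gg.1 dd.1 h2).cons_bad hb]
              intro S _
              exact mul_zero_left _ _ _
            · have h4 := h0 gg.2 xy.2 (q2 hb)
              rw [← h3] at h4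
              exact ((h1 gg.1 dd.1 h2).cons _).mul h4 _
          · exact ((h1 gg.1 dd.1 h2).cons _).mul ((h1 gg.2 dd.2 h3).cons _) _
    exact goal
  · have : ¬ (g = 0 ∧ d = 0) := fun h => hd h.2
    simp only [if_neg this]
    exact NB.zero
  · have : ¬ (K = 1 ∧ g = 1 ∧ d = 0) := fun h => hd h.2.2
    simp only [if_neg this]
    exact NB.zero

/-- If the invariants vanish outside the classes in a set `M` closed under addition which contains
`0`, all constraints outside `M` hold. -/
theorem z_outside {M : Set T.B} (h0 : (0 : T.B) ∈ M) (ha : ∀ a ∈ M, ∀ b ∈ M, a + b ∈ M)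
    {F : Corr T} (hF : ∀ g d, d ∉ M → ∀ S, F g d S = 0) (K g : ℕ) (d : T.B) (hd : d ∉ M) :
    z F K g d = 0 := by
  have hF' : ∀ g d, d ∉ M → F g d = 0 := fun g d h => funext (hF g d h)
  have hd0 : d ≠ 0 := fun h => hd (h ▸ h0)
  funext S
  rw [z_eq]
  have h1 : ¬ (g = 0 ∧ d = 0) := fun h => hd0 h.2
  have h2 : ¬ (K = 1 ∧ g = 1 ∧ d = 0) := fun h => hd0 h.2.2
  have h3 : ∀ x y, Phi F g d x y S = 0 := by
    intro x y
    unfold Phi
    rw [hF' (g - 1) d hd]
    have : ∑ gg ∈ antidiagonal g, ∑ dd ∈ antidiagonal d, mul (T.par y.2)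
        (fun S => F gg.1 dd.1 (x :: S)) (fun S => F gg.2 dd.2 (y :: S)) S = 0 := by
      apply Finset.sum_eq_zero
      intro gg _
      apply Finset.sum_eq_zero
      intro dd hdd
      have hs : dd.1 + dd.2 = d := by simpa using hdd
      by_cases h4 : dd.1 ∈ M
      · have h5 : dd.2 ∉ M := fun h5 => hd (hs ▸ ha _ h4 _ h5)
        rw [hF' _ _ h5]
        exact mul_zero_right _ _ _
      · rw [hF' _ _ h4]
        exact mul_zero_left _ _ _
    rw [this]
    simp
  simp only [Pi.add_apply, Pi.smul_apply, hF' g d hd, ins_zero_fn, Pi.zero_apply, der_zero,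
    if_neg h1, if_neg h2, h3]
  simp

end Vale.Agent.P269.R3.H661
end
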