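import Vale.Agent.P269.R3.H661.Surf

noncomputable section

namespace Vale.Agent.P269.R3.H661

open Finset Vale.Agent.P269.R2.H284

/-- Complete intersection surfaces of general type; the vanishing theorem for holomorphic two-forms
(`IsCan`) is a hypothesis. Not handed in: the part without it is contained in `P269.Surfaces`. -/
theorem generalType (c : ℕ) (e : Fin c → ℕ) (V : Type) [Fintype V] (pV qV : V → ℕ)
    (ηV : Matrix V V ℂ) (he : ∀ j, 1 ≤ e j) (hV : IsPrimitive 2 e V pV qV ηV)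
    (F : Corr (ci 2 e V pV qV ηV)) (h0 : IsGW0 _ F)
    (hd : IsGWDiv _ (ciDiv 2 e V pV qV ηV) F) :
    (∀ g d : ℕ, (g : ℤ) - 1 + idx (2 + c) e * d ≤ 0 → ∀ K S, z F K g d S = 0) ∧
    (c + 3 ≤ ∑ j, e j → ∀ g d : ℕ, g ≤ 1 → ∀ K S, z F K g d S = 0) ∧
    ∀ k : ℕ, 1 ≤ k → ∑ j, e j = c + 3 + k → IsCan k F →
      (∀ g d : ℕ, g ≤ 1 + k * d ∨ ¬ (k * ∏ j, e j ∣ d) → ∀ K S, z F K g d S = 0) ∧
      (∀ g d : ℕ, d ≠ 0 → ∀ K S, (∃ s ∈ S, s.2 ∈ Off e V pV qV ηV) → z F K g d S = 0) ∧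
      ∀ g d : ℕ, d ≠ 0 → (coreSet e V pV qV ηV k g d).Finite ∧
        ((∀ x ∈ coreSet e V pV qV ηV k g d, z F x.1 g d x.2 = 0) →
          ∀ K S, z F K g d S = 0) := by
  have h1 : ∀ g d : ℕ, (g : ℤ) - 1 + idx (2 + c) e * d ≤ 0 → ∀ K S, z F K g d S = 0 := by
    intro g d h K S
    have hv : vd (ci 2 e V pV qV ηV) g d ≤ 0 := by
      have : vd (ci 2 e V pV qV ηV) g d = (((2 : ℕ) : ℤ) - 3) * (1 - g) + idx (2 + c) e * d :=
        rfl
      rw [this]
      push_cast
      linarith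
    rw [main (ci_isTarget he hV) (surf_one hV) (ci_isGW h0 hd) g d hv K]
    rfl
  have h2 : c + 3 ≤ ∑ j, e j → ∀ g d : ℕ, g ≤ 1 → ∀ K S, z F K g d S = 0 := by
    intro h g d hg K S
    apply h1
    have h2 : idx (2 + c) e ≤ 0 := by
      unfold idx
      have : ((c + 3 : ℕ) : ℤ) ≤ ((∑ j, e j : ℕ) : ℤ) := by exact_mod_cast h
      push_cast at this ⊢
      linarith
    have h3 : idx (2 + c) e * (d : ℤ) ≤ 0 :=
      mul_nonpos_of_nonpos_of_nonneg h2 (by positivity)
    have h4 : (g : ℤ) ≤ 1 := by exact_mod_cast hg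
    linarith
  refine ⟨h1, h2, ?_⟩
  intro k hk hsum hF
  have hidx : idx (2 + c) e = -(k : ℤ) := by
    unfold idx
    have : ((∑ j, e j : ℕ) : ℤ) = ((c + 3 + k : ℕ) : ℤ) := by exact_mod_cast hsum
    push_cast at this ⊢
    linarith
  have hoff : ∀ g d : ℕ, d ≠ 0 → ∀ K S, (∃ s ∈ S, s.2 ∈ Off e V pV qV ηV) → z F K g d S = 0 :=
    fun g d hd K S hS => surf_off he hV hF K g d hd S hS
  refine ⟨?_, hoff, ?_⟩
  · rintro g d (h | h) K S
    · apply h1
      rw [hidx]
      have : (g : ℤ) ≤ 1 + k * d := by exact_mod_cast h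
      linarith
    · have h3 : z F K g d = 0 :=
        z_outside (T := ci 2 e V pV qV ηV) (M := {d : ℕ | k * ∏ j, e j ∣ d})
          (dvd_zero (k * ∏ j, e j)) (fun a ha b hb => Nat.dvd_add (b := a) (c := b) ha hb)
          (fun g d hd S => by
            by_contra hne
            exact hd (hF.mult g d S hne)) K g d h
      rw [h3]
      rfl
  · intro g d hd0
    refine ⟨coreSet_finite k g d, ?_⟩
    intro hE K S
    have h3 : z F K g d = 0 := by
      refine reduction' (ci_isTarget he hV) ci_isDivisor (ci_isGW h0 hd) hd (surf_one hV)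
        (fun a ha hb b => surf_two a ha hb b) g d
        (fun K => surf_off he hV hF K g d hd0) ?_ K
      intro K S hK hR hS hs
      have hC : Core S := core_of_red hR hS
      refine hE (K, S) ⟨hK, hC, ?_⟩
      have hv : vd (ci 2 e V pV qV ηV) g d = (((2 : ℕ) : ℤ) - 3) * (1 - g) +
        idx (2 + c) e * d := rfl
      rw [core_sum hC, hv, hidx] at hs
      push_cast at hs
      zify
      linarith
    rw [h3]
    rfl

end Vale.Agent.P269.R3.H661
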