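import Vale.Agent.P269.R3.H661.Bad

/-! # P269: reduction of the constraints, with a set of classes treated separately -/

noncomputable section

namespace Vale.Agent.P269.R3.H661

open Finset Vale.Agent.P269.R2.H284
open scoped Classical

variable {T : Target} {P : Divisor T}

theorem reduction' (hT : IsTarget T) (hP : IsDivisor T P) {F : Corr T} (hF : IsGW T F)
    (hD : IsGWDiv T P F) (h1 : ∀ a, T.p a + T.q a ≤ 1 → a = T.one) {B : Set T.A}
    (h2 : ∀ a, T.p a + T.q a = 2 → a ∉ B → ∀ b, P.H T.one b ≠ 0 ↔ b = a)
    (g : ℕ) (d : T.B) (hB : ∀ K, NB B (z F K g d))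
    (hred : ∀ (K : ℕ) (S : List T.Ins), 2 ≤ K → Red S → (∀ s ∈ S, s.2 ∉ B) →
      (((S.map fun s => 2 * s.1 + T.p s.2 + T.q s.2 - 2).sum : ℕ) : ℤ) + 2 * ((K : ℤ) - 1) =
        2 * vd T g d →
      z F K g d S = 0) (K : ℕ) : z F K g d = 0 := by
  rcases K with _ | K
  · exact z_zero hF g d
  induction K with
  | zero => exact z_one hT hF g d
  | succ K ih =>
    have hpar : T.par (((0, T.one) : T.Ins).2) % 2 = 0 := by
      simp [Target.par, hT.p_one, hT.q_one]
    have hstr : ∀ S, z F (K + 1 + 1) g d ((0, T.one) :: S) =
        der (low T) (z F (K + 1 + 1) g d) S := by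
      intro S
      have := z_string hT hF (K + 1) g d S
      rw [ih] at this
      unfold str at this
      simp only [Pi.zero_apply, mul_zero] at this
      linear_combination this
    have main : ∀ n, ∀ S : List T.Ins, S.length = n → z F (K + 1 + 1) g d S = 0 := by
      intro n
      induction n using Nat.strong_induction_on with
      | _ n ihn =>
        intro S hS
        by_cases hbad : ∃ s ∈ S, s.2 ∈ B
        · exact hB _ S hbad
        by_cases hmem : (0, T.one) ∈ S
        · obtain ⟨S₁, S₂, rfl⟩ := List.append_of_mem hmem
          rw [(z_ev hT hF _ g d).front hpar, hstr]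
          apply der_len
          intro S' hS'
          apply ihn S'.length _ S' rfl
          rw [hS', ← hS]
          simp only [List.length_append, List.length_cons]
          omega
        by_cases hmem1 : (1, T.one) ∈ S
        · obtain ⟨S₁, S₂, rfl⟩ := List.append_of_mem hmem1
          rw [(z_ev hT hF _ g d).front (x := (1, T.one)) hpar]
          have h3 := z_dil hT hF (K + 1 + 1) g d (S₁ ++ S₂)
          rw [dil_eq] at h3
          have h4 : z F (K + 1 + 1) g d (S₁ ++ S₂) = 0 := by
            apply ihn (S₁ ++ S₂).length _ _ rfl
            rw [← hS]
            simp only [List.length_append, List.length_cons]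
            omega
          rw [h4] at h3
          linear_combination h3
        by_cases hmem2 : ∃ a, (0, a) ∈ S ∧ T.p a + T.q a = 2
        · obtain ⟨a, ha, hpa⟩ := hmem2
          have hH := h2 a hpa (fun hb => hbad ⟨_, ha, hb⟩)
          have hHa : P.H T.one a ≠ 0 := (hH a).mpr rfl
          have hpara : T.par (((0, a) : T.Ins).2) % 2 = 0 := by
            simp [Target.par, hpa]
          obtain ⟨S₁, S₂, rfl⟩ := List.append_of_mem ha
          rw [(z_ev hT hF _ g d).front hpara]
          have h3 := z_div hT hP hF hD (K + 1 + 1) g d (S₁ ++ S₂)
          have hlen : (S₁ ++ S₂).length < n := by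
            rw [← hS]
            simp only [List.length_append, List.length_cons]
            omega
          have h4 : z F (K + 1 + 1) g d (S₁ ++ S₂) = 0 := ihn _ hlen _ rfl
          have h5 : der (divh P) (z F (K + 1 + 1) g d) (S₁ ++ S₂) = 0 := by
            apply der_len
            intro S' hS'
            exact ihn S'.length (by rw [hS']; exact hlen) S' rfl
          rw [h4, h5] at h3
          have h6 : ∑ b, P.H T.one b * z F (K + 1 + 1) g d ((0, b) :: (S₁ ++ S₂)) =
              P.H T.one a * z F (K + 1 + 1) g d ((0, a) :: (S₁ ++ S₂)) := by
            rw [Finset.sum_eq_single_of_mem a (by simp)]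
            intro b _ hb
            have : P.H T.one b = 0 := by
              by_contra h0
              exact hb ((hH b).mp h0)
            rw [this, zero_mul]
          rw [h6] at h3
          have h7 : P.H T.one a * z F (K + 1 + 1) g d ((0, a) :: (S₁ ++ S₂)) = 0 := by
            linear_combination h3
          exact (mul_eq_zero.mp h7).resolve_left hHa
        · have hR : Red S := by
            intro s hs
            by_contra hlt
            have h3 : s ≠ (0, T.one) := fun h => hmem (by rw [← h]; exact hs)
            have h4 : s ≠ (1, T.one) := fun h => hmem1 (by rw [← h]; exact hs)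
            rcases Nat.lt_or_ge s.1 1 with h5 | h5
            · have h6 : s.1 = 0 := by omega
              by_cases h7 : T.p s.2 + T.q s.2 ≤ 1
              · exact h3 (Prod.ext h6 (h1 _ h7))
              · apply hmem2
                refine ⟨s.2, ?_, by omega⟩
                have : ((0, s.2) : T.Ins) = s := Prod.ext h6.symm rfl
                rw [this]; exact hs
            · have h6 : s.1 = 1 := by omega
              have h7 : T.p s.2 + T.q s.2 ≤ 1 := by omega
              exact h4 (Prod.ext h6 (h1 _ h7))
          by_contra hne
          have w1 := z_wt hT hT.grp (fun g d => hF.dim_p g d) (K + 1 + 1) g d S hne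
          have w2 := z_wt hT hT.grq (fun g d => hF.dim_q g d) (K + 1 + 1) g d S hne
          apply hne
          apply hred (K + 1 + 1) S (by omega) hR (fun s hs hb => hbad ⟨s, hs, hb⟩)
          have w3 : (((S.map fun s => 2 * s.1 + T.p s.2 + T.q s.2 - 2).sum : ℕ) : ℤ) =
              wt T.p S + wt T.q S := by
            clear w1 w2 hne hmem hmem1 hmem2 hbad hS
            induction S with
            | nil => simp [wt]
            | cons s S ihS =>
              have h8 := ihS (fun t ht => hR t (List.mem_cons_of_mem _ ht))
              have h9 := hR s List.mem_cons_self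
              rw [wt_cons, wt_cons]
              simp only [List.map_cons, List.sum_cons]
              rw [Nat.cast_add, h8]
              omega
          rw [w3, w1, w2]
          ring
    funext S
    exact main S.length S rfl

end Vale.Agent.P269.R3.H661
end
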