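import Vale.Agent.P269.R3.H661.Redu

/-! # P269: complete intersection surfaces of general type -/

noncomputable section

namespace Vale.Agent.P269.R3.H661

open Finset Vale.Agent.P269.R2.H284
open scoped Classical

section Defs

variable {c : ℕ} {e : Fin c → ℕ} {V : Type} [Fintype V] {pV qV : V → ℕ} {ηV : Matrix V V ℂ}

/-- The classes of a complete intersection surface which restrict to zero on a canonical curve: the
class `h²` and the primitive classes. -/
def Off (e : Fin c → ℕ) (V : Type) [Fintype V] (pV qV : V → ℕ) (ηV : Matrix V V ℂ) :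
    Set (ci 2 e V pV qV ηV).A :=
  {a | a = Sum.inl 2 ∨ ∃ v, a = Sum.inr v}

/-- Published facts on the Gromov-Witten invariants of a complete intersection surface `X` of
general type, `K_X = k h`, `k ≥ 1`. In classes `d > 0` (Lee-Parker, Kiem-Li: `X` has a holomorphic
two-form with smooth zero curve `C ∈ |K_X|`, and the virtual class is carried by the stable maps to
`C`): `mult`: the curve classes are multiples of `[C]`, so `d` is a multiple of `k deg X`; `curve`:
invariants with an insertion of a class which restricts to zero on `C` vanish. In class `0`, where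
the space of maps is `M_(g,n) × X` with obstruction bundle `E^∨ ⊠ T X`: `deg`: the product of the
inserted classes has degree at most `4`; `single`: invariants with exactly one primitive insertion
vanish, because a primitive class has zero product with `h`. -/
structure IsCan (k : ℕ) (F : Corr (ci 2 e V pV qV ηV)) : Prop where
  mult : ∀ (g d : ℕ) (S : List (ci 2 e V pV qV ηV).Ins), F g d S ≠ 0 → k * ∏ j, e j ∣ d
  curve : ∀ (g d : ℕ) (S : List (ci 2 e V pV qV ηV).Ins), d ≠ 0 →
    (∃ s ∈ S, s.2 ∈ Off e V pV qV ηV) → F g d S = 0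
  deg : ∀ (g : ℕ) (S : List (ci 2 e V pV qV ηV).Ins), F g (0 : ℕ) S ≠ 0 →
    (S.map fun s => (ci 2 e V pV qV ηV).p s.2 + (ci 2 e V pV qV ηV).q s.2).sum ≤ 4
  single : ∀ (g : ℕ) (S₁ : List (ci 2 e V pV qV ηV).Ins) (m : ℕ) (v : V)
    (S₂ : List (ci 2 e V pV qV ηV).Ins), (∀ s ∈ S₁ ++ S₂, ∃ i, s.2 = Sum.inl i) →
    F g (0 : ℕ) (S₁ ++ ((m, Sum.inr v) : (ci 2 e V pV qV ηV).Ins) :: S₂) = 0

/-- Lists of insertions `τ_m(1)` with `m ≥ 2` and `τ_m(h)` with `m ≥ 1`. -/
def Core (S : List (ci 2 e V pV qV ηV).Ins) : Prop :=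
  ∀ s ∈ S, (s.2 = Sum.inl 0 ∧ 2 ≤ s.1) ∨ (s.2 = Sum.inl 1 ∧ 1 ≤ s.1)

/-- The remaining constraints in genus `g` and degree `d` (`K - 1` is the index of the Virasoro
operator): `L_k`, `k = K - 1 ≥ 1`, with insertions `τ_m(1)`, `m ≥ 2`, and `τ_m(h)`, `m ≥ 1`, and
`∑ (m + p - 1) + K + k d = g`. -/
def coreSet (e : Fin c → ℕ) (V : Type) [Fintype V] (pV qV : V → ℕ) (ηV : Matrix V V ℂ)
    (k g d : ℕ) : Set (ℕ × List (ci 2 e V pV qV ηV).Ins) :=
  {x | 2 ≤ x.1 ∧ Core x.2 ∧
    (x.2.map fun s => s.1 + (ci 2 e V pV qV ηV).p s.2 - 1).sum + x.1 + k * d = g}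

end Defs

variable {c : ℕ} {e : Fin c → ℕ} {V : Type} [Fintype V] {pV qV : V → ℕ} {ηV : Matrix V V ℂ}

theorem surf_one (hV : IsPrimitive 2 e V pV qV ηV)
    (a : (ci 2 e V pV qV ηV).A) (h : (ci 2 e V pV qV ηV).p a + (ci 2 e V pV qV ηV).q a ≤ 1) :
    a = (ci 2 e V pV qV ηV).one := by
  rcases a with i | v
  · have h' : (i : ℕ) + i ≤ 1 := h
    have : i = 0 := by
      ext
      simp only [Fin.val_zero]
      omega
    rw [this]
    rfl
  · have h' : pV v + qV v ≤ 1 := h
    have := hV.type v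
    omega

theorem surf_two (a : (ci 2 e V pV qV ηV).A)
    (h : (ci 2 e V pV qV ηV).p a + (ci 2 e V pV qV ηV).q a = 2) (ha : a ∉ Off e V pV qV ηV)
    (b : (ci 2 e V pV qV ηV).A) :
    (ciDiv 2 e V pV qV ηV).H (ci 2 e V pV qV ηV).one b ≠ 0 ↔ b = a := by
  rcases a with i | v
  · have h' : (i : ℕ) + i = 2 := h
    have hi : (i : ℕ) = 1 := by omega
    rcases b with j | w
    · show (if (j : ℕ) = ((0 : Fin (2 + 1)) : ℕ) + 1 then (1 : ℂ) else 0) ≠ 0 ↔
        (Sum.inl j : Fin (2 + 1) ⊕ V) = Sum.inl i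
      rw [Fin.val_zero, zero_add]
      constructor
      · intro h1
        have h2 : (j : ℕ) = 1 := by
          by_contra h3
          rw [if_neg h3] at h1
          exact h1 rfl
        congr 1
        ext
        omega
      · intro h1
        have h2 : j = i := Sum.inl.inj h1
        rw [h2, if_pos hi]
        exact one_ne_zero
    · show (0 : ℂ) ≠ 0 ↔ (Sum.inr w : Fin (2 + 1) ⊕ V) = Sum.inl i
      simp
  · exact absurd (Or.inr ⟨v, rfl⟩) ha

/-- The inverse of a block diagonal pairing is block diagonal. -/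
theorem iota_block {T : Target} (hT : IsTarget T) (f : T.A → Bool)
    (hf : ∀ a b, T.η a b ≠ 0 → f a = f b) (a b : T.A) (h : T.ι a b ≠ 0) : f a = f b := by
  let ι' : Matrix T.A T.A ℂ := Matrix.of fun a b => if f a = f b then T.ι a b else 0
  have key : T.η * ι' = 1 := by
    rw [← hT.η_ι]
    ext x b
    rw [Matrix.mul_apply, Matrix.mul_apply]
    by_cases hx : f x = f b
    · apply Finset.sum_congr rfl
      intro c _
      by_cases hc : T.η x c = 0
      · rw [hc]; ring
      · have h1 := hf x c hc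
        have hPc : f c = f b := by rw [← h1, hx]
        simp only [ι', Matrix.of_apply, if_pos hPc]
    · have e1 : ∑ c, T.η x c * T.ι c b = 0 := by
        have := congrFun (congrFun hT.η_ι x) b
        rw [Matrix.mul_apply, Matrix.one_apply] at this
        rw [this, if_neg]
        rintro rfl
        exact hx rfl
      rw [e1]
      apply Finset.sum_eq_zero
      intro c _
      by_cases hc : T.η x c = 0
      · rw [hc]; ring
      · have h1 := hf x c hc
        have hPc : ¬ f c = f b := by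
          rw [← h1]
          exact hx
        simp only [ι', Matrix.of_apply, if_neg hPc, mul_zero]
  have h2 : ι' = T.ι := by
    calc ι' = (T.ι * T.η) * ι' := by rw [hT.ι_η, one_mul]
      _ = T.ι * (T.η * ι') := by rw [mul_assoc]
      _ = T.ι := by rw [key, mul_one]
  by_contra hne
  apply h
  rw [← h2]
  simp only [ι', Matrix.of_apply]
  rw [if_neg hne]

/-- The inverse of the pairing respects the splitting in powers of `h` and primitive classes. -/
theorem surf_iota (he : ∀ j, 1 ≤ e j) (hV : IsPrimitive 2 e V pV qV ηV)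
    (a b : Fin 3 ⊕ V) (h : (ci 2 e V pV qV ηV).ι a b ≠ 0) : a.isLeft = b.isLeft := by
  refine iota_block (T := ci 2 e V pV qV ηV) (ci_isTarget he hV)
    (fun a : Fin 3 ⊕ V => a.isLeft) ?_ a b h
  rintro (i | v) (j | w) h
  · rfl
  · exact absurd rfl h
  · exact absurd rfl h
  · rfl

theorem cpow_zero {T : Target} (a b : T.A) (h : (T.C ^ 0) a b ≠ 0) : a = b := by
  rw [pow_zero, Matrix.one_apply] at h
  by_contra hne
  rw [if_neg hne] at h
  exact h rfl

theorem cpow_succ {T : Target} (i : ℕ) (a b : T.A) (h : (T.C ^ (i + 1)) a b ≠ 0) :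
    ∃ x, (T.C ^ i) a x ≠ 0 ∧ T.C x b ≠ 0 := by
  rw [pow_succ, Matrix.mul_apply] at h
  obtain ⟨x, _, hx⟩ := Finset.exists_ne_zero_of_sum_ne_zero h
  exact ⟨x, left_ne_zero_of_mul hx, right_ne_zero_of_mul hx⟩

/-- `C^i` respects the set `Off`. -/
theorem surf_C (i : ℕ) (a b : Fin 3 ⊕ V) (h : ((ci 2 e V pV qV ηV).C ^ i) a b ≠ 0) :
    (∃ x y : Fin 3, a = Sum.inl x ∧ b = Sum.inl y ∧ (y : ℕ) = x + i) ∨
      (i = 0 ∧ ∃ v, a = Sum.inr v ∧ b = Sum.inr v) := by
  induction i generalizing b with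
  | zero =>
    have h1 : a = b := cpow_zero (T := ci 2 e V pV qV ηV) a b h
    subst h1
    rcases a with x | v
    · exact Or.inl ⟨x, x, rfl, rfl, rfl⟩
    · exact Or.inr ⟨rfl, v, rfl, rfl⟩
  | succ i ih =>
    obtain ⟨c', h0, h2⟩ := cpow_succ (T := ci 2 e V pV qV ηV) i a b h
    have h1 := ih c' h0
    rcases c' with x | v
    · rcases b with y | w
      · have h3 : (if (y : ℕ) = x + 1 then (idx (2 + c) e : ℂ) else 0) ≠ 0 := h2
        have h4 : (y : ℕ) = x + 1 := by
          by_contra h5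
          rw [if_neg h5] at h3
          exact h3 rfl
        rcases h1 with ⟨x', y', e1, e2, e3⟩ | ⟨_, v, _, e2⟩
        · refine Or.inl ⟨x', y, e1, rfl, ?_⟩
          have := Sum.inl.inj e2
          rw [h4, this, e3]
          ring
        · exact absurd e2 (by simp)
      · exact absurd rfl h2
    · rcases b with y | w
      · exact absurd rfl h2
      · exact absurd rfl h2

/-- In class `0` a second insertion of `h` or `h²` makes the invariants with an insertion from `Off`
vanish. -/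
theorem surf_h0 (hV : IsPrimitive 2 e V pV qV ηV) {k : ℕ} {F : Corr (ci 2 e V pV qV ηV)}
    (hF : IsCan k F) (g : ℕ) (x : (ci 2 e V pV qV ηV).Ins)
    (hx : x.2 = Sum.inl 1 ∨ x.2 = Sum.inl 2) :
    NB (Off e V pV qV ηV) (fun S => F g (0 : ℕ) (x :: S)) := by
  rintro S ⟨s, hs, hb⟩
  by_contra hne
  have hne' : F g (0 : ℕ) (x :: S) ≠ 0 := hne
  obtain ⟨S₁, S₂, rfl⟩ := List.append_of_mem hs
  have h1 := hF.deg g _ hne'
  simp only [List.map_cons, List.map_append, List.sum_cons, List.sum_append] at h1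
  have h2 : 2 ≤ (ci 2 e V pV qV ηV).p x.2 + (ci 2 e V pV qV ηV).q x.2 := by
    rcases hx with hx | hx
    · rw [hx]
      show 2 ≤ ((1 : Fin (2 + 1)) : ℕ) + ((1 : Fin (2 + 1)) : ℕ)
      decide
    · rw [hx]
      show 2 ≤ ((2 : Fin (2 + 1)) : ℕ) + ((2 : Fin (2 + 1)) : ℕ)
      decide
  have h3 : ∃ v, s.2 = Sum.inr v := by
    rcases hb with hb | hb
    · exfalso
      have : (ci 2 e V pV qV ηV).p s.2 + (ci 2 e V pV qV ηV).q s.2 = 4 := by
        rw [hb]
        show ((2 : Fin (2 + 1)) : ℕ) + ((2 : Fin (2 + 1)) : ℕ) = 4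
        decide
      omega
    · exact hb
  obtain ⟨v, hv⟩ := h3
  have h4 : (ci 2 e V pV qV ηV).p s.2 + (ci 2 e V pV qV ηV).q s.2 = 2 := by
    rw [hv]
    exact hV.type v
  have h5 : ∀ (S : List (ci 2 e V pV qV ηV).Ins),
      (S.map fun s => (ci 2 e V pV qV ηV).p s.2 + (ci 2 e V pV qV ηV).q s.2).sum = 0 →
      ∀ s ∈ S, ∃ i, s.2 = Sum.inl i := by
    intro S hS t ht
    have h6 : (ci 2 e V pV qV ηV).p t.2 + (ci 2 e V pV qV ηV).q t.2 = 0 := by
      have := List.single_le_sum (l := S.map fun s =>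
        (ci 2 e V pV qV ηV).p s.2 + (ci 2 e V pV qV ηV).q s.2) (fun _ _ => Nat.zero_le _) _
        (List.mem_map_of_mem ht)
      omega
    exact ⟨0, surf_one hV t.2 (by omega)⟩
  apply hne'
  have h7 := hF.single g (x :: S₁) s.1 v S₂ (by
    intro t ht
    rw [List.cons_append, List.mem_cons, List.mem_append] at ht
    rcases ht with rfl | ht | ht
    · rcases hx with hx | hx
      · exact ⟨1, hx⟩
      · exact ⟨2, hx⟩
    · exact h5 S₁ (by omega) t ht
    · exact h5 S₂ (by omega) t ht)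
  have h8 : ((s.1, Sum.inr v) : (ci 2 e V pV qV ηV).Ins) = s := Prod.ext rfl hv.symm
  rw [h8] at h7
  exact h7

/-- The constraints in classes `d ≠ 0` with an insertion from `Off` hold. -/
theorem surf_off (he : ∀ j, 1 ≤ e j) (hV : IsPrimitive 2 e V pV qV ηV) {k : ℕ}
    {F : Corr (ci 2 e V pV qV ηV)} (hF : IsCan k F) (K g : ℕ) (d : ℕ) (hd : d ≠ 0) :
    NB (Off e V pV qV ηV) (z F K g d) := by
  refine nb_z (T := ci 2 e V pV qV ηV)
    (P := {a | a = (Sum.inl 1 : Fin 3 ⊕ V) ∨ a = (Sum.inl 2 : Fin 3 ⊕ V)})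
    ?_ ?_ ?_ ?_ ?_ K g d hd
  · intro i a b h ha
    rcases surf_C i a b h with ⟨x, y, e1, e2, e3⟩ | ⟨_, v, e1, e2⟩
    · rcases ha with ha | ⟨v, ha⟩
      · rw [e1] at ha
        have hx := Sum.inl.inj ha
        left
        rw [e2]
        congr 1
        ext
        have hx' : (x : ℕ) = 2 := by rw [hx]; rfl
        have := y.2
        show (y : ℕ) = 2
        omega
      · rw [e1] at ha
        exact absurd ha (by simp)
    · exact Or.inr ⟨v, e2⟩
  · intro i a b c' h1 h2 h3
    have hι := surf_iota he hV c' a h1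
    rcases surf_C i a b h2 with ⟨x, y, e1, e2, e3⟩ | ⟨_, v, e1, e2⟩
    · have hy : (y : ℕ) ≠ 2 := by
        intro hy
        apply h3
        left
        rw [e2]
        congr 1
        ext
        exact hy
      have := y.2
      subst e1
      rcases c' with w | w
      · have h4 := (ci_isTarget he hV).ι_type (Sum.inl w) (Sum.inl x) h1
        have h5 : (w : ℕ) + x = 2 := h4.1
        have h6 : (w : ℕ) = 1 ∨ (w : ℕ) = 2 := by omega
        rcases h6 with h6 | h6
        · left
          congr 1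
          ext
          exact h6
        · right
          congr 1
          ext
          exact h6
      · simp at hι
    · exact absurd (Or.inr ⟨v, e2⟩) h3
  · intro i a b c' h1 h2 h3
    have hι := surf_iota he hV c' a h1
    rcases c' with w | w
    · have hw : (w : ℕ) ≠ 2 := by
        intro hw
        apply h3
        left
        congr 1
        ext
        exact hw
      have := w.2
      rcases surf_C i a b h2 with ⟨x, y, e1, e2, e3⟩ | ⟨_, v, e1, e2⟩
      · subst e1
        have h4 := (ci_isTarget he hV).ι_type (Sum.inl w) (Sum.inl x) h1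
        have h5 : (w : ℕ) + x = 2 := h4.1
        have := y.2
        have h6 : (y : ℕ) = 1 ∨ (y : ℕ) = 2 := by omega
        rcases h6 with h6 | h6
        · left
          rw [e2]
          congr 1
          ext
          exact h6
        · right
          rw [e2]
          congr 1
          ext
          exact h6
      · rw [e1] at hι
        simp at hι
    · exact absurd (Or.inr ⟨w, rfl⟩) h3
  · intro g d hd S hS
    exact hF.curve g d S hd hS
  · intro g x hx
    exact surf_h0 hV hF g x hx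

/-- Reduced lists without insertions from `Off` consist of `τ_m(1)`, `m ≥ 2`, and `τ_m(h)`,
`m ≥ 1`. -/
theorem core_of_red {S : List (ci 2 e V pV qV ηV).Ins} (hR : Red S)
    (hS : ∀ s ∈ S, s.2 ∉ Off e V pV qV ηV) : Core S := by
  intro s hs
  have h1 := hR s hs
  have h2 := hS s hs
  obtain ⟨m, a⟩ := s
  rcases a with i | v
  · have h3 : 3 ≤ 2 * m + (i : ℕ) + (i : ℕ) := h1
    have h4 : (i : ℕ) ≠ 2 := by
      intro hi
      apply h2
      left
      show (Sum.inl i : Fin (2 + 1) ⊕ V) = Sum.inl 2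
      congr 1
      ext
      exact hi
    have := i.2
    have h5 : (i : ℕ) = 0 ∨ (i : ℕ) = 1 := by omega
    rcases h5 with h5 | h5
    · left
      refine ⟨?_, ?_⟩
      · show (Sum.inl i : Fin (2 + 1) ⊕ V) = Sum.inl 0
        congr 1
        ext
        exact h5
      · show 2 ≤ m
        omega
    · right
      refine ⟨?_, ?_⟩
      · show (Sum.inl i : Fin (2 + 1) ⊕ V) = Sum.inl 1
        congr 1
        ext
        exact h5
      · show 1 ≤ m
        omega
  · exact absurd (Or.inr ⟨v, rfl⟩) h2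

theorem red_of_core {S : List (ci 2 e V pV qV ηV).Ins} (hS : Core S) : Red S := by
  intro s hs
  obtain ⟨m, a⟩ := s
  rcases hS _ hs with ⟨h1, h2⟩ | ⟨h1, h2⟩
  · have h1' : a = Sum.inl 0 := h1
    subst h1'
    have h2' : 2 ≤ m := h2
    show 3 ≤ 2 * m + ((0 : Fin (2 + 1)) : ℕ) + ((0 : Fin (2 + 1)) : ℕ)
    omega
  · have h1' : a = Sum.inl 1 := h1
    subst h1'
    have h2' : 1 ≤ m := h2
    have h3 : ((1 : Fin (2 + 1)) : ℕ) = 1 := rfl
    show 3 ≤ 2 * m + ((1 : Fin (2 + 1)) : ℕ) + ((1 : Fin (2 + 1)) : ℕ)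
    omega

theorem core_sum {S : List (ci 2 e V pV qV ηV).Ins} (hS : Core S) :
    (S.map fun s => 2 * s.1 + (ci 2 e V pV qV ηV).p s.2 + (ci 2 e V pV qV ηV).q s.2 - 2).sum =
      2 * (S.map fun s => s.1 + (ci 2 e V pV qV ηV).p s.2 - 1).sum := by
  induction S with
  | nil => simp
  | cons s S ih =>
    have h1 := ih (fun t ht => hS t (List.mem_cons_of_mem _ ht))
    simp only [List.map_cons, List.sum_cons]
    rw [h1]
    have h2 : (ci 2 e V pV qV ηV).p s.2 = (ci 2 e V pV qV ηV).q s.2 := by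
      rcases hS s List.mem_cons_self with ⟨h1, _⟩ | ⟨h1, _⟩ <;> rw [h1] <;> rfl
    rw [← h2]
    omega

theorem coreSet_finite (k g d : ℕ) : (coreSet e V pV qV ηV k g d).Finite := by
  refine ((Set.finite_Iic g).prod (finite_red (ci 2 e V pV qV ηV) (2 * g))).subset ?_
  rintro ⟨K, S⟩ ⟨hK, hS, hs⟩
  simp only at hK hS hs
  refine ⟨?_, red_of_core hS, ?_⟩
  · show K ≤ g
    omega
  · show (S.map fun s => 2 * s.1 + (ci 2 e V pV qV ηV).p s.2 +
      (ci 2 e V pV qV ηV).q s.2 - 2).sum ≤ 2 * g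
    rw [core_sum hS]
    omega

end Vale.Agent.P269.R3.H661
end
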